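import Vale.Agent.Lib.P238.Defs
import Vale.Agent.Lib.P238.Main

/-!
Hand-in for P238: the `ℓ₁` distortion of the edit distance on binary words of length `n` is at
least a constant times `(log n)² / log log n`.
-/

namespace Vale.Agent.Results.P238.LogSquared

open Vale.Agent.P238

/-- `c₁({0,1}ⁿ, ED) = Ω((log n)² / log log n)`. -/
theorem result : ∃ c : ℝ, 0 < c ∧ ∃ n₀ : ℕ, ∀ n : ℕ, n₀ ≤ n →
    c * Real.log n ^ 2 / Real.log (Real.log n) ≤ cOne (ED n) :=
  cOne_lower

end Vale.Agent.Results.P238.LogSquared
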