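import Mathlib
import Vale.Agent.Lib.P238.Main

/-!
# P238: every embedding of the binary words of length `n` with the edit distance into `ℓ₁` has
distortion at least a constant times `(log n)² / log log n`
-/

namespace Vale.Agent.Results.P238.PlainLogSquared

/-- One single-symbol operation transforms the binary word `x` into `y`: the insertion of a
symbol `a`, the deletion of a symbol `a`, or the substitution of a symbol `a` by a symbol `b`. -/
def OneOperation (x y : List Bool) : Prop :=
  ∃ u v : List Bool,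
    (∃ a, x = u ++ v ∧ y = u ++ [a] ++ v) ∨
    (∃ a, x = u ++ [a] ++ v ∧ y = u ++ v) ∨
    (∃ a b, x = u ++ [a] ++ v ∧ y = u ++ [b] ++ v)

/-- The edit distance: the least `k` such that `k` successive single-symbol operations
`x = w 0, w 1, ..., w k = y` transform `x` into `y`. -/
noncomputable def editDistance (x y : List Bool) : ℕ :=
  sInf {k : ℕ | ∃ w : ℕ → List Bool, w 0 = x ∧ w k = y ∧ ∀ i < k, OneOperation (w i) (w (i + 1))}

theorem step_iff (x y : List Bool) : Vale.Agent.P238.EditStep x y ↔ OneOperation x y := by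
  constructor
  · rintro (⟨u, v, a⟩ | ⟨u, v, a⟩ | ⟨u, v, a, b⟩)
    · exact ⟨u, v, Or.inl ⟨a, rfl, by simp⟩⟩
    · exact ⟨u, v, Or.inr (Or.inl ⟨a, by simp, rfl⟩)⟩
    · exact ⟨u, v, Or.inr (Or.inr ⟨a, b, by simp, by simp⟩)⟩
  · rintro ⟨u, v, ⟨a, rfl, rfl⟩ | ⟨a, rfl, rfl⟩ | ⟨a, b, rfl, rfl⟩⟩
    · simpa using Vale.Agent.P238.EditStep.insertion u v a
    · simpa using Vale.Agent.P238.EditStep.deletion u v a
    · simpa using Vale.Agent.P238.EditStep.substitution u v a b

theorem path_iff (k : ℕ) (x y : List Bool) : Vale.Agent.P238.EditPath k x y ↔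
    ∃ w : ℕ → List Bool, w 0 = x ∧ w k = y ∧ ∀ i < k, OneOperation (w i) (w (i + 1)) := by
  constructor
  · intro h
    induction h with
    | refl x => exact ⟨fun _ => x, rfl, rfl, fun i hi => absurd hi (Nat.not_lt_zero i)⟩
    | @cons k x y z h p ih =>
      obtain ⟨w, h0, hk, hw⟩ := ih
      refine ⟨fun i => Nat.casesOn i x w, rfl, hk, ?_⟩
      intro i hi
      cases i with
      | zero =>
        change OneOperation x (w 0)
        rw [h0]
        exact (step_iff x y).1 h
      | succ i => exact hw i (Nat.lt_of_succ_lt_succ hi)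
  · rintro ⟨w, h0, hk, hw⟩
    induction k generalizing x w with
    | zero =>
      rw [← h0, ← hk]
      exact Vale.Agent.P238.EditPath.refl _
    | succ k ih =>
      have h1 : Vale.Agent.P238.EditPath k (w 1) y :=
        ih (w 1) (fun i => w (i + 1)) rfl hk (fun i hi => hw (i + 1) (Nat.succ_lt_succ hi))
      rw [← h0]
      exact Vale.Agent.P238.EditPath.cons ((step_iff _ _).2 (hw 0 (Nat.succ_pos k))) h1

theorem editDistance_eq (x y : List Bool) :
    editDistance x y = Vale.Agent.P238.editDist x y := by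
  unfold editDistance Vale.Agent.P238.editDist
  congr 1
  ext k
  exact (path_iff k x y).symm

/-- Every map `f` of the binary words of length `n` into the real space `ℓ₁` with
`A · ED(x, y) ≤ ‖f x - f y‖₁ ≤ B · ED(x, y)` has `B / A ≥ c (log n)² / log log n`. -/
theorem result : ∃ c : ℝ, 0 < c ∧ ∀ᶠ n : ℕ in Filter.atTop,
    ∀ (f : (Fin n → Bool) → lp (fun _ : ℕ => ℝ) 1) (A B : ℝ), 0 < A →
      (∀ x y : Fin n → Bool, A * editDistance (List.ofFn x) (List.ofFn y) ≤ ‖f x - f y‖) →
      (∀ x y : Fin n → Bool, ‖f x - f y‖ ≤ B * editDistance (List.ofFn x) (List.ofFn y)) →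
      c * (Real.log n ^ 2 / Real.log (Real.log n)) ≤ B / A := by
  obtain ⟨c, hc, n₀, h⟩ := Vale.Agent.P238.cOne_lower
  refine ⟨c, hc, ?_⟩
  filter_upwards [Filter.eventually_ge_atTop n₀, Filter.eventually_ge_atTop 1] with n hn hn1
  intro f A B hA h1 h2
  have hED : ∀ x y : Fin n → Bool,
      (editDistance (List.ofFn x) (List.ofFn y) : ℝ) = Vale.Agent.P238.ED n x y := by
    intro x y
    rw [editDistance_eq]
    rfl
  simp only [hED] at h1 h2
  have hinj : Function.Injective f := by
    intro x y hxy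
    by_contra hne
    have h3 := h1 x y
    rw [hxy, sub_self, norm_zero] at h3
    exact absurd (mul_pos hA (Vale.Agent.P238.ED_pos hne)) (not_lt.2 h3)
  have hB : 0 ≤ B := by
    have hne : (fun _ => true : Fin n → Bool) ≠ fun _ => false := by
      intro h3
      have := congrFun h3 ⟨0, hn1⟩
      simp at this
    have h3 := (norm_nonneg _).trans (h2 _ _ : ‖f (fun _ => true) - f (fun _ => false)‖ ≤ _)
    exact nonneg_of_mul_nonneg_left h3 (Vale.Agent.P238.ED_pos hne)
  have hdist : Vale.Agent.P238.distortion (Vale.Agent.P238.ED n) f ≤ B / A := by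
    unfold Vale.Agent.P238.distortion
    rw [div_eq_mul_inv]
    refine mul_le_mul ?_ ?_ (Real.iSup_nonneg fun p =>
      div_nonneg (Vale.Agent.P238.ED_nonneg _ _ _) (norm_nonneg _)) hB
    · refine Real.iSup_le (fun p => ?_) hB
      exact (div_le_iff₀ (Vale.Agent.P238.ED_pos p.2)).2 (h2 _ _)
    · refine Real.iSup_le (fun p => ?_) (inv_nonneg.2 hA.le)
      have hpos : 0 < ‖f p.1.1 - f p.1.2‖ :=
        norm_pos_iff.2 (sub_ne_zero.2 fun h' => p.2 (hinj h'))
      rw [div_le_iff₀ hpos, inv_mul_eq_div, le_div_iff₀ hA, mul_comm]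
      exact h1 _ _
  have hle : Vale.Agent.P238.cOne (Vale.Agent.P238.ED n) ≤
      Vale.Agent.P238.distortion (Vale.Agent.P238.ED n) f := by
    refine csInf_le ⟨0, ?_⟩ ⟨f, hinj, rfl⟩
    rintro D ⟨g, -, rfl⟩
    exact mul_nonneg (Real.iSup_nonneg fun p => div_nonneg (norm_nonneg _)
      (Vale.Agent.P238.ED_nonneg _ _ _)) (Real.iSup_nonneg fun p =>
        div_nonneg (Vale.Agent.P238.ED_nonneg _ _ _) (norm_nonneg _))
  have h4 := h n hn
  rw [← mul_div_assoc]
  exact h4.trans (hle.trans hdist)

end Vale.Agent.Results.P238.PlainLogSquared
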